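import Vale.Agent.P290.H416.K3Calc
import Vale.Agent.P267.H469.Betti

/-! P290Z, part III: `b_2 = h^{1,1} + 2` for the abstract calculus of forms of a K3 surface. -/

namespace Vale.Agent.P290Z.Lat.Rank

noncomputable section

open scoped ComplexConjugate
open Vale.Agent.P267.H469 Vale.Agent.P267.H469.Calc Vale.Agent.P290.H416

variable {Ω0 Ω1 Ω2 Ω3 : Type*} [AddCommGroup Ω0] [Module ℂ Ω0] [AddCommGroup Ω1]
    [Module ℂ Ω1] [AddCommGroup Ω2] [Module ℂ Ω2] [AddCommGroup Ω3] [Module ℂ Ω3]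

/-- the Hodge data of a K3 surface -/
structure KD (C : Calc Ω0 Ω1 Ω2 Ω3) (σ : Ω2) : Prop where
  p20 : C.p20 σ = σ
  cl : C.d2 σ = 0
  cl' : C.d2 (C.c2 σ) = 0
  ne : σ ≠ 0
  h01 : ∀ a, C.is01 a → C.p02 (C.d1 a) = 0 → ∃ u, a = C.p01 (C.d0 u)
  h20 : ∀ b, C.p20 b = b → C.d2 b = 0 → ∃ c : ℂ, b = c • σ
  h02 : ∀ b, C.p02 b = b → C.I22 b σ = 0 → ∃ a, C.is01 a ∧ C.p02 (C.d1 a) = b
  sd : C.SD21

namespace KD

variable {C : Calc Ω0 Ω1 Ω2 Ω3} {σ : Ω2} (h : KD C σ)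

include h

theorem pair_ne : C.I22 σ (C.c2 σ) ≠ 0 := fun h0 => h.ne (C.pos20 σ h.p20 (by rw [h0]; simp))

theorem orth {b : Ω2} (hb : C.is11 b) : C.I22 b σ = 0 ∧ C.I22 b (C.c2 σ) = 0 := by
  refine ⟨by rw [C.I22_symm, I22_Om_11 h.p20 hb], ?_⟩
  rw [← hb, C.I22_p11, ← C.c2_p11, ← h.p20, C.p11_p20, map_zero, map_zero]

theorem d1_eq {a : Ω1} (ha : C.is01 a) (h2 : C.p02 (C.d1 a) = 0) :
    ∃ ζ : Ω1, C.d1 a = - C.d1 (C.p10 ζ) := by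
  obtain ⟨u, rfl⟩ := h.h01 a ha h2
  exact ⟨C.d0 u, by rw [d1_p10_d0, neg_neg]⟩

theorem exact_iff {b : Ω2} (hb : b ∈ C.W) : b ∈ C.B2 ↔ b ∈ C.B11 := by
  obtain ⟨hc, h11⟩ := mem_W.1 hb
  constructor
  · rintro ⟨η, rfl⟩
    have h2 : C.p02 (C.d1 (C.p01 η)) = 0 := by
      have h3 := h11.p02_eq
      rwa [← C.p1_add η, map_add, map_add, C.integ, zero_add] at h3
    obtain ⟨ζ, hζ⟩ := h.d1_eq (C.p01_idem η) h2
    refine ⟨η - ζ, ?_⟩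
    have h4 : C.d1 η = C.d1 (C.p10 (η - ζ)) := by
      conv_lhs => rw [← C.p1_add η]
      rw [map_add, hζ, map_sub, map_sub]; abel
    change C.p11 (C.d1 (C.p10 (η - ζ))) = C.d1 η
    rw [← h4, h11]
  · rintro ⟨ξ, hξ⟩
    have hξ' : C.p11 (C.d1 (C.p10 ξ)) = b := hξ
    have h3 := C.p2_add (C.d1 (C.p10 ξ))
    rw [C.integ, add_zero, hξ'] at h3
    obtain ⟨c, h4⟩ := h.h20 _ (C.p20_idem (C.d1 (C.p10 ξ))) (by
      have h5 := congrArg C.d2 h3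
      rwa [map_add, hc, add_zero, C.d2d1] at h5)
    have h5 := C.I22_exact (C.p10 ξ) h.cl'
    rw [← h3, h4, map_add, LinearMap.add_apply, (h.orth h11).2, add_zero, map_smul,
      LinearMap.smul_apply, smul_eq_mul, mul_eq_zero] at h5
    rw [h4, h5.resolve_right h.pair_ne, zero_smul, zero_add] at h3
    exact ⟨C.p10 ξ, h3.symm⟩

theorem surj_Z11 (b : Ω2) (hb : b ∈ C.Z11) : ∃ b' ∈ C.W, b - b' ∈ C.B11 := by
  obtain ⟨h1, h2⟩ := C.mem_Z11.1 hb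
  obtain ⟨η₀, hη₀, hη₁⟩ := h.sd b h1 h2 (by
    intro a ha ha2
    obtain ⟨ζ, hζ⟩ := h.d1_eq ha ha2
    rw [← C.stokes, hζ, map_neg, LinearMap.neg_apply, C.stokes, C.I13_p10, h2, map_zero,
      neg_zero])
  obtain ⟨η, hη, hη2, hη3⟩ : ∃ η, C.p20 η = η ∧ C.d2 η = C.d2 b ∧ C.I22 (C.c2 η) σ = 0 := by
    refine ⟨η₀ - conj (C.I22 (C.c2 η₀) σ / C.I22 σ (C.c2 σ)) • σ, ?_, ?_, ?_⟩
    · rw [map_sub, map_smul, hη₀, h.p20]
    · rw [map_sub, map_smul, hη₁, h.cl, smul_zero, sub_zero]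
    · rw [map_sub, LinearMap.map_smulₛₗ, Complex.conj_conj, map_sub, map_smul, LinearMap.sub_apply,
        LinearMap.smul_apply, smul_eq_mul, C.I22_symm (C.c2 σ), div_mul_cancel₀ _ h.pair_ne,
        sub_self]
  obtain ⟨a, ha, ha2⟩ := h.h02 (C.c2 η) (by rw [← C.c2_p20, hη]) hη3
  have ha' : C.is10 (C.c1 a) := by
    unfold is10 is01 at *
    rw [← C.c1_p01, ha]
  have e1 : C.p20 (C.d1 (C.c1 a)) = η := by rw [C.d1c, ← C.c2_p02, ha2, C.c2c2]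
  have e2 := C.p2_add (C.d1 (C.c1 a))
  have e3 : C.p02 (C.d1 (C.c1 a)) = 0 := by rw [← ha', C.integ]
  rw [e1, e3, add_zero] at e2
  refine ⟨b + C.p11 (C.d1 (C.c1 a)), mem_W.2 ⟨?_, h1.add (C.p11_idem _)⟩, -(C.c1 a), ?_⟩
  · have e4 : b + C.p11 (C.d1 (C.c1 a)) = b - η + C.d1 (C.c1 a) := by
      rw [eq_sub_of_add_eq' e2]; abel
    rw [e4, map_add, map_sub, hη2, C.d2d1, sub_self, zero_add]
  · change C.p11 (C.d1 (C.p10 (-(C.c1 a)))) = _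
    rw [map_neg, ha', map_neg, map_neg]; abel

theorem ker_eq : LinearMap.ker C.toH2 = LinearMap.ker C.toH11 := by
  ext ⟨b, hb⟩
  rw [LinearMap.mem_ker, LinearMap.mem_ker]
  unfold toH2 toH11
  rw [LinearMap.comp_apply, LinearMap.comp_apply, Submodule.mkQ_apply, Submodule.mkQ_apply,
    Submodule.Quotient.mk_eq_zero, Submodule.Quotient.mk_eq_zero]
  exact h.exact_iff hb

theorem toH11_surj : Function.Surjective C.toH11 := by
  intro y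
  obtain ⟨⟨b, hb⟩, rfl⟩ := Submodule.Quotient.mk_surjective _ y
  obtain ⟨b', hb', h1⟩ := h.surj_Z11 b hb
  refine ⟨⟨b', hb'⟩, ?_⟩
  unfold toH11
  rw [LinearMap.comp_apply, Submodule.mkQ_apply, eq_comm, Submodule.Quotient.eq]
  exact h1

/-- the periods -/
def per : C.H2 →ₗ[ℂ] ℂ × ℂ :=
  Submodule.liftQ _ (((C.I22.flip σ).prod (C.I22.flip (C.c2 σ))).comp C.Z2.subtype) (by
    rintro ⟨b, hb⟩ ⟨a, ha⟩
    obtain rfl : C.d1 a = b := ha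
    exact Prod.ext (C.I22_exact a h.cl) (C.I22_exact a h.cl'))

theorem per_mk (b : C.Z2) :
    h.per (Submodule.Quotient.mk b) = (C.I22 b σ, C.I22 b (C.c2 σ)) := rfl

theorem per_surj : LinearMap.range h.per = ⊤ := by
  refine LinearMap.range_eq_top.2 fun p => ⟨Submodule.Quotient.mk
    ((p.1 / C.I22 σ (C.c2 σ)) • ⟨C.c2 σ, h.cl'⟩ + (p.2 / C.I22 σ (C.c2 σ)) • ⟨σ, h.cl⟩), ?_⟩
  have e1 := I22_Om_Om h.p20
  have e2 : C.I22 (C.c2 σ) (C.c2 σ) = 0 := by rw [C.I22_conj, e1, map_zero]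
  have e3 := h.pair_ne
  rw [per_mk]
  refine Prod.ext ?_ ?_ <;>
    simp [e1, e2, C.I22_symm (C.c2 σ) σ, div_mul_cancel₀ _ e3]

theorem ker_per : LinearMap.ker h.per = LinearMap.range C.toH2 := by
  ext y
  obtain ⟨⟨b, hb⟩, rfl⟩ := Submodule.Quotient.mk_surjective _ y
  rw [LinearMap.mem_ker, per_mk, Prod.mk_eq_zero]
  constructor
  · rintro ⟨h1, h2⟩
    obtain ⟨a, ha, -⟩ := exists_11' h.p20 h.h02 h1 h2
    have hb' : C.d2 b = 0 := hb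
    refine ⟨⟨b - C.d1 a, mem_W.2 ⟨by rw [map_sub, hb', C.d2d1, sub_zero], ha⟩⟩, ?_⟩
    unfold toH2
    rw [LinearMap.comp_apply, Submodule.mkQ_apply, eq_comm, Submodule.Quotient.eq]
    exact ⟨a, (sub_sub_cancel b _).symm⟩
  · rintro ⟨⟨b', hb'⟩, e⟩
    have e' := congrArg h.per e
    have e2 : h.per (C.toH2 ⟨b', hb'⟩) = (C.I22 b' σ, C.I22 b' (C.c2 σ)) := rfl
    rw [e2, per_mk, (h.orth (mem_W.1 hb').2).1, (h.orth (mem_W.1 hb').2).2] at e'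
    exact ⟨(congrArg Prod.fst e').symm, (congrArg Prod.snd e').symm⟩

/-- `b_2 = h^{1,1} + 2` -/
theorem b2_eq [FiniteDimensional ℂ C.H2] :
    Module.finrank ℂ C.H2 = Module.finrank ℂ C.H11 + 2 := by
  have e := LinearEquiv.finrank_eq ((C.toH2.quotKerEquivRange.symm.trans
    (Submodule.quotEquivOfEq _ _ h.ker_eq)).trans
    (C.toH11.quotKerEquivOfSurjective h.toH11_surj))
  rw [← h.per.finrank_range_add_finrank_ker, h.per_surj, h.ker_per, e, finrank_top, add_comm]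
  simp

end KD

end

end Vale.Agent.P290Z.Lat.Rank
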